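import Vale.Agent.P284Y.Final
import Vale.Agent.P284W16.Kap

/-!
# The abelianity conjecture of Campana, with the Iitaka dimension as defined in the problem

`κ(X, L)` is the largest dimension of the images of the meromorphic maps defined by the complete
linear systems `|L^m|`, `m ≥ 1`.
-/

open scoped Manifold ContDiff
open Vale.Agent.P272.K Vale.Agent.P284.H248 Vale.Agent.P284.H894.F Vale.Agent.P284W16

namespace Vale.Agent.Results.P284.AAbelianityLiteral

/-- Let `X` be a connected compact complex manifold of dimension `n`. (1) If `H⁰(X, L^m) ≠ 0`, it has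
a finite basis, and the images of the meromorphic maps defined by its bases have a common dimension
`d ≤ n`; if `m ≥ 1` then `κ(X, L)` is a number `k ≤ n`. (2) `κ(X, L) = k` if and only if `k` is the
largest rank of these maps. (3) If `X` is Kähler and special then `π₁(X)` is virtually abelian. -/
theorem result {n : ℕ} {X : Type} [TopologicalSpace X] [T2Space X] [CompactSpace X]
    [ConnectedSpace X] [ChartedSpace (Cm n) X] [IsManifold 𝓘(ℂ, Cm n) ω X] :
    (∀ (L : LineBundle n X) (m : ℕ) (t : Sec L m), NonZero t →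
      (∃ (N : ℕ) (s : Fin (N + 1) → Sec L m), IsBasis s) ∧
      (∃ d ≤ n, ∀ (N : ℕ) (s : Fin (N + 1) → Sec L m), IsBasis s → HasDim (image s) d) ∧
      (1 ≤ m → ∃ k ≤ n, Kappa L k)) ∧
    (∀ (L : LineBundle n X) (k : ℕ), Kappa L k ↔ IitakaEQ L k) ∧
    ((∃ w : Chart n X → Cm n → Matrix (Fin n) (Fin n) ℂ, IsKahler w) → IsSpecial n X → ∀ x : X,
      VirtuallyAbelian (FundamentalGroup X x) ∧ VirtAbelianRank (FundamentalGroup X x) (2 * n)) := by
  refine ⟨fun L m t ht => ⟨exists_basis ht, exists_dim_all ht, fun hm => exists_kappa hm ht⟩,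
    kappa_iff, fun ⟨w, hw⟩ hS x => ?_⟩
  obtain ⟨A, h1, h2, h3⟩ := Vale.Agent.P284Y.kahler hw (special_iff.1 hS) x
  exact ⟨⟨A, h1, h2⟩, A, h1, h2, h3⟩

end Vale.Agent.Results.P284.AAbelianityLiteral
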